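import Crest.Agent.X212.Gp83.B

/-!
# X212 / Gp83 (helper83), part 3: general position (`gpStmt : Dsc4.GPStmt`)
-/

set_option autoImplicit false
set_option linter.unusedSectionVars false

open Set Metric Topology Filter
open scoped NNReal

namespace Crest.Agent.X212.Gp83

open Crest.Agent.R096 Crest.Agent.R096.Ce_537 Crest.Agent.X212.Lad50
open Crest.Agent.X212.Prd34 (V up)
open Crest.Agent.X212.Dsc4
open Crest.Agent.X212.Lev33 (Coc Prim)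

variable {E : Type} [NormedAddCommGroup E] [NormedSpace ℝ E] {W dW : Set E}
  {Γ : Type} [Group Γ] {G U K : Set E} {c : E → E → Γ} {l χ : E → ℝ} {η : ℝ} {t : E → E}

/-- `K` lies in the inner part of a box of an `l`-chart, `t K` misses the box -/
def Box (W dW U : Set E) (l : E → ℝ) (t : E → E) (η : ℝ) (K : Set E) : Prop :=
  ∃ (k : Ch W dW) (z : V) (ρ : ℝ), 0 < ρ ∧ k.O ⊆ U ∧ (∀ y ∈ k.O, k.e.f y 0 = l y) ∧
    closedBall z (2 * ρ) ∩ up ⊆ k.O' ∧ |z 0| + 2 * ρ < η ∧ K ⊆ k.O ∩ k.e.f ⁻¹' ball z ρ ∧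
    t '' K ⊆ (k.e.g '' (closedBall z (2 * ρ) ∩ up))ᶜ

/-- transversality along `K` -/
def TrOn (W dW U : Set E) (l : E → ℝ) (t : E → E) (K : Set E) : Prop :=
  ∀ x ∈ K, l x = 0 → l (t x) = 0 → Ch2 W dW U l t x

theorem isCompact_box (k : Ch W dW) {z : V} {r : ℝ} (h : closedBall z r ∩ up ⊆ k.O') :
    IsCompact (k.e.g '' (closedBall z r ∩ up)) :=
  ((isCompact_closedBall _ _).inter_right (isClosed_le continuous_const (continuous_apply 2))).image_of_continuousOn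
    (k.e.pg.1.mono h)

theorem fam_cont (h : Fam W dW G c U l η) {x : E} (hx : x ∈ U) : ContinuousWithinAt l W x := by
  obtain ⟨k, a1, -, a3⟩ := h.ch x hx
  exact (((continuous_apply 0).continuousAt.comp_continuousWithinAt (k.e.pf.1 x a1)).congr
    (fun y hy => (a3 y hy).symm) (a3 x a1).symm).mono_of_mem_nhdsWithin (ro_nhds k.opn a1)

/-- the involution as an equivalence -/
def invE (h : Inv W dW G c t) : PLEquiv W W := ⟨t, t, h.pl, h.pl, h.maps, h.maps, h.inv, h.inv⟩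

theorem inv_bd (h : Inv W dW G c t) : ∀ x ∈ W, (invE h).f x ∈ dW ↔ x ∈ dW := fun x hx =>
  ⟨fun a => h.inv x hx ▸ h.bd a, fun a => h.bd a⟩

theorem ev_compact {P : ℝ → E → Prop} (hK : IsCompact K) (hKW : K ⊆ W)
    (h : ∀ x ∈ K, ∀ᶠ p in 𝓝 (0 : ℝ) ×ˢ 𝓝[W] x, P p.1 p.2) : ∀ᶠ a in 𝓝 (0 : ℝ), ∀ x ∈ K, P a x := by
  refine (hK.eventually_forall_of_forall_eventually (P := fun a x => x ∈ W → P a x) fun x hx => ?_).mono
    fun a ha x hx => ha x hx (hKW hx)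
  have := h x hx
  rw [← nhdsWithin_univ (0 : ℝ), ← nhdsWithin_prod_eq, eventually_nhdsWithin_iff] at this
  exact this.mono fun p hp hw => hp ⟨trivial, hw⟩

/-- openness -/
theorem tr_open (hF : Fam W dW G c U l η) (hI : Inv W dW G c t) (hχ : PLOn χ W) (hK : IsCompact K)
    (hKU : K ⊆ U ∩ t ⁻¹' U) (h : TrOn W dW U l t K) :
    ∀ᶠ a in 𝓝 (0 : ℝ), TrOn W dW U (fun x => l x - a * χ x) t K := by
  refine ev_compact hK (fun x hx => fam_sub hF (hKU hx).1) fun x hx => ?_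
  have hW := fam_sub hF (hKU hx).1
  have ne : ∀ {s : E → E}, Tendsto s (𝓝[W] x) (𝓝[W] (s x)) → s x ∈ U → l (s x) ≠ 0 →
      ∀ᶠ p in 𝓝 (0 : ℝ) ×ˢ 𝓝[W] x, l (s p.2) - p.1 * χ (s p.2) ≠ 0 := fun hs h1 h2 =>
    ((((fam_cont hF h1).tendsto.comp hs).comp tendsto_snd).sub (tendsto_fst.mul
      (((hχ.1 _ (fam_sub hF h1)).tendsto.comp hs).comp tendsto_snd))).eventually_ne (by simpa using h2)
  by_cases h1 : l x = 0
  swap
  · exact (ne (s := id) tendsto_id (hKU hx).1 h1).mono fun p hp e => absurd e hp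
  by_cases h2 : l (t x) = 0
  swap
  · exact (ne ((hI.pl.1 x hW).tendsto_nhdsWithin hI.maps) (hKU hx).2 h2).mono fun p hp _ e => absurd e hp
  obtain ⟨k, a1, a2⟩ := h x hx h1 h2
  have m : MapsTo k.e.g k.O' W := fun y hy => ro_sub k.opn (k.e.mg hy)
  obtain ⟨F, C, f1, f2, f3, f4⟩ := ext_lip (ro_sub k.opn' (k.e.mf a1)) (ro_nhds k.opn' (k.e.mf a1))
    (pl_vec3 (hχ.comp k.e.pg m) (hχ.comp (hI.pl.comp k.e.pg m) (hI.maps.comp m)) (plOn_const 0 _))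
  obtain ⟨k', b1, b2, b3⟩ := exists_restr k a1 ((tendsto_e k a1).eventually f3)
  have hC : ∀ᶠ a in 𝓝 (0 : ℝ), ‖a‖₊ * C < 1 :=
    (by fun_prop : Continuous fun a : ℝ => ‖a‖₊ * C).continuousAt.eventually_lt continuousAt_const (by simp)
  filter_upwards [prod_mem_prod hC (ro_nhds k'.opn b1)] with p hp _ _
  obtain ⟨H, hH⟩ := exists_homeo (pl_smul p.1 f1) ((lipschitzWith_smul p.1).comp f2) hp.1
  refine ⟨post k' H (Or.inl fun y => ?_), hp.2, fun y hy => ?_⟩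
  · obtain ⟨y', -, e⟩ := f4 y
    simp [hH, e]
  · obtain ⟨c1, c2, c3, c4⟩ := a2 y (b2 hy).1
    have e : (post k' H (Or.inl fun y => by obtain ⟨y', -, e⟩ := f4 y; simp [hH, e])).e.f y =
        k.e.f y - p.1 • ![χ y, χ (t y), 0] := by
      show H.f (k'.e.f y) = _
      rw [hH, b3, (b2 hy).2]
      simp only [k.e.li y (b2 hy).1]
    exact ⟨c1, c2, by simp [e, c3], by simp [e, c4]⟩

/-- density -/
theorem tr_dense (hF : Fam W dW G c U l η) (hI : Inv W dW G c t) (hK : IsCompact K)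
    (hKU : K ⊆ U ∩ t ⁻¹' U) (h1 : ∀ x ∈ K, ∀ᶠ y in 𝓝[W] x, χ y = 1 ∧ χ (t y) = 0) :
    ∃ F : Set ℝ, F.Finite ∧ ∀ a ∉ F, TrOn W dW U (fun x => l x - a * χ x) t K := by
  refine hK.induction_on (p := fun s => ∃ F : Set ℝ, F.Finite ∧ ∀ a ∉ F,
    TrOn W dW U (fun x => l x - a * χ x) t s) ⟨∅, finite_empty, fun _ _ _ h => h.elim⟩
    (fun s s' hs ⟨F, a, b⟩ => ⟨F, a, fun r hr x hx => b r hr x (hs hx)⟩)
    (fun s s' ⟨F, a, b⟩ ⟨F', a', b'⟩ => ⟨F ∪ F', a.union a', fun r hr x hx =>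
      hx.elim (b r (fun h => hr (Or.inl h)) x) (b' r (fun h => hr (Or.inr h)) x)⟩) fun x hx => ?_
  obtain ⟨k₁, a1, a2, a3⟩ := hF.ch x (hKU hx).1
  obtain ⟨k₂, b1, b2, b3⟩ := hF.ch _ (hKU hx).2
  obtain ⟨k, c1, c2, c3⟩ := exists_restr (pre k₂ (invE hI) (inv_bd hI)) (x := x)
    ⟨ro_sub k₁.opn a1, b1⟩ (inter_mem (ro_nhds k₁.opn a1) (h1 x hx))
  have c4 : ∀ y ∈ k.O, k.e.f y 0 = l (t y) := fun y hy => c3 ▸ b3 _ (c2 hy).1.2
  obtain ⟨F, f1, f2⟩ := dens k.opn' (pl_apply (k₁.e.pf.comp k.e.pg fun y hy => (c2 (k.e.mg hy)).2.1) 0)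
  have c5 : ∀ y ∈ k.O, k₁.e.f (k.e.g (k.e.f y)) 0 = l y := fun y hy => by
    rw [k.e.li y hy, a3 y (c2 hy).2.1]
  refine ⟨k.O, nhdsWithin_mono x (fun y hy => fam_sub hF (hKU hy).1) (ro_nhds k.opn c1), F, f1,
    fun a ha y hy e1 e2 => ?_⟩
  simp only [(c2 hy).2.2.1, (c2 hy).2.2.2, mul_one, mul_zero, sub_zero, sub_eq_zero] at e1 e2
  obtain ⟨H, g1, g2, g3⟩ := f2 _ (k.e.mf hy) ((c4 y hy).trans e2) (by rwa [c5 y hy, e1])
  obtain ⟨k', d1, d2, d3⟩ := exists_post k hy H g1 g2 ((tendsto_e k hy).eventually g3)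
  refine ⟨k', d1, fun w hw => ?_⟩
  have hw' := (d2 hw).1
  refine ⟨a2 (c2 hw').2.1, b2 (c2 hw').1.2, ?_, ?_⟩
  · rw [d3, (d2 hw).2.1, c5 w hw', c5 y hy, e1]
    simp [(c2 hw').2.2.1]
  · rw [d3, (d2 hw).2.2, c4 w hw']
    simp [(c2 hw').2.2.2]

theorem Shift.near {k : Ch W dW} {z : V} {ρ : ℝ} {S : Set E} {g : ℝ → E → E} (h : Shift k z ρ S g χ)
    (hρ : 0 < ρ) (hK : IsCompact K) (hKW : K ⊆ W) {A : Set E} (hA : IsOpen A) (hKA : K ⊆ A) :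
    ∀ᶠ a in 𝓝 (0 : ℝ), ∀ x ∈ K, g a x ∈ A := by
  refine ev_compact hK hKW fun x hx => ?_
  have := (h.cont (0, x) ⟨⟨by linarith, hρ.le⟩, hKW hx⟩).eventually
    (hA.mem_nhds (by simpa only [h.zero] using hKA hx))
  rwa [nhdsWithin_prod_eq, nhdsWithin_eq_nhds.2 (Icc_mem_nhds (by linarith) hρ)] at this

/-- one step -/
theorem step (hG : G ⊆ dW) (hc : Coc G c) (hI : Inv W dW G c t) (hF : Fam W dW G c U l η)
    (hB : Box W dW U l t η K) (hKW : K ⊆ W) :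
    ∃ χ : E → ℝ, PLOn χ W ∧ (∀ x, |χ x| ≤ 1) ∧ (∀ x ∈ K, ∀ᶠ y in 𝓝[W] x, χ y = 1 ∧ χ (t y) = 0) ∧
      (∀ᶠ a in 𝓝 (0 : ℝ), Fam W dW G c U (fun x => l x - a * χ x) η) ∧
      ∀ K', IsCompact K' → K' ⊆ W → Box W dW U l t η K' →
        ∀ᶠ a in 𝓝 (0 : ℝ), Box W dW U (fun x => l x - a * χ x) t η K' := by
  obtain ⟨k, z, ρ, hρ, a1, a2, a3, a4, a5, a6⟩ := hB
  obtain ⟨g, χ, h⟩ := exists_shift k hρ a3
  have cS := (isCompact_box k a3).isClosed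
  set S := k.e.g '' (closedBall z (2 * ρ) ∩ up) with eS
  have sS : S ⊆ k.O := by rintro _ ⟨y, hy, rfl⟩; exact k.e.mg (a3 hy)
  have SG : ∀ x ∈ S, x ∈ dW → x ∈ G := fun x hx h' => by
    refine (hF.ess (l x) ?_).2.2.1 ⟨⟨a1 (sS hx), rfl⟩, h'⟩
    obtain ⟨y, hy, rfl⟩ := hx
    rw [← a2 _ (k.e.mg (a3 hy)), k.e.ri y (a3 hy)]
    have := (norm_le_pi_norm (y - z) 0).trans (mem_closedBall_iff_norm.1 hy.1)
    have h2 := abs_sub_abs_le_abs_sub (y 0) (z 0)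
    exact (by linarith : |y 0| ≤ |z 0| + |y 0 - z 0|).trans_lt ((add_le_add_right this _).trans_lt a4)
  have pres : ∀ a ∈ Icc (-ρ) ρ, ∀ x, (g a x ∈ dW ↔ x ∈ dW) ∧ (g a x ∈ U ↔ x ∈ U) ∧ (g a x ∈ G ↔ x ∈ G) ∧
      l x - a * χ x = l (g a x) := fun a ha x => by
    by_cases hx : x ∈ S
    · obtain ⟨b1, b2, b3⟩ := h.on a ha x hx
      have e : g a x ∈ dW ↔ x ∈ dW := by rw [k.bd _ (sS b1), k.bd _ (sS hx), b3]
      exact ⟨e, iff_of_true (a1 (sS b1)) (a1 (sS hx)), ⟨fun h => SG x hx (e.1 (hG h)),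
        fun h => SG _ b1 (e.2 (hG h))⟩, by rw [← a2 _ (sS b1), b2, a2 _ (sS hx)]⟩
    · simp [(h.off x hx).1, (h.off x hx).2]
  have sm : ∀ᶠ a in 𝓝 (0 : ℝ), |a| < ρ := continuous_abs.continuousAt.eventually_lt continuousAt_const
    (by simpa)
  refine ⟨χ, h.pl, h.le, fun x hx => ?_, sm.mono fun a ha => ?_, fun K' hK' hW' hB' => ?_⟩
  · filter_upwards [ro_nhds (ro_pre k.opn k.e.pf.1 isOpen_ball) (a5 hx),
      (hI.pl.1 x (hKW hx)).eventually (cS.isOpen_compl.mem_nhds (a6 ⟨x, hx, rfl⟩))] with y h1 h2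
    exact ⟨h.one y h1.1 h1.2, (h.off _ h2).1⟩
  · obtain ⟨q, hq⟩ := h.eqv a ha
    have ha' := abs_le.1 ha.le
    have m : ∀ s ∈ Icc (0 : ℝ) 1, s * a ∈ Icc (-ρ) ρ := fun s hs => abs_le.1 (by
      rw [abs_mul, abs_of_nonneg hs.1]
      exact (mul_le_of_le_one_left (abs_nonneg a) hs.2).trans ha.le)
    exact fam_pre hF hc q (fun x hx => hq x hx ▸ (pres a ha' x).1) (fun x hx => hq x hx ▸ (pres a ha' x).2.1)
      (fun x hx => hq x hx ▸ (pres a ha' x).2.2.1.1) (H := fun p => g (p.2 * a) p.1)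
      (h.cont.comp (f := fun p : E × ℝ => (p.2 * a, p.1)) (by fun_prop) fun p hp => ⟨m _ hp.2, hp.1⟩)
      (fun x _ => by simp [h.zero]) (fun x hx => by simp [hq x hx])
      (fun p hp => (pres _ (m _ hp.2) _).2.2.1.2 hp.1)
      fun x hx => hq x (fam_sub hF hx) ▸ (pres a ha' x).2.2.2
  · obtain ⟨k', z', ρ', hρ', b1, b2, b3, b4, b5, b6⟩ := hB'
    obtain ⟨A, hA, eA⟩ := ro_pre k'.opn k'.e.pf.1 (isOpen_ball (x := z') (ε := ρ'))
    have tW : t '' K' ⊆ W := by rintro _ ⟨x, hx, rfl⟩; exact hI.maps (hW' hx)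
    filter_upwards [sm, h.near hρ hK' hW' hA fun x hx => (eA.le (b5 hx)).1,
      h.near hρ (hK'.image_of_continuousOn (hI.pl.1.mono hW')) tW
        (isCompact_box k' b3).isClosed.isOpen_compl b6] with a ha h1 h2
    obtain ⟨q, hq⟩ := h.eqv a ha
    have ha' := abs_le.1 ha.le
    refine ⟨pre k' q fun x hx => hq x hx ▸ (pres a ha' x).1, z', ρ', hρ',
      fun x hx => (pres a ha' x).2.1.1 (hq x hx.1 ▸ b1 hx.2),
      fun x hx => (b2 _ hx.2).trans (by rw [hq x hx.1]; exact (pres a ha' x).2.2.2.symm), b3, b4,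
      fun x hx => ?_, fun x hx => ?_⟩
    · have := eA.ge ⟨hq x (hW' hx) ▸ h1 x hx, q.mf (hW' hx)⟩
      exact ⟨⟨hW' hx, this.1⟩, this.2⟩
    · rintro ⟨y, hy, e⟩
      refine h2 x hx ⟨y, hy, ?_⟩
      rw [← hq x (tW hx), ← e]
      exact (q.ri _ (ro_sub k'.opn (k'.e.mg (b3 hy)))).symm

theorem exists_box (hI : Inv W dW G c t) (hF : Fam W dW G c U l η) {x : E} (hx : x ∈ U) (hl : |l x| < η) :
    ∃ N ∈ 𝓝[W] x, ∀ K ⊆ N, Box W dW U l t η K := by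
  obtain ⟨k, a1, a2, a3⟩ := hF.ch x hx
  obtain ⟨A, A', hA, hA', h1, h2, h3⟩ := t2_separation (hI.free x (fam_sub hF hx))
  obtain ⟨k', b1, b2, b3⟩ := exists_restr k a1 (mem_nhdsWithin_of_mem_nhds (hA'.mem_nhds h2))
  obtain ⟨r, hr, hs⟩ := (nhdsWithin_hasBasis nhds_basis_closedBall up).mem_iff.1
    (ro_nhds k'.opn' (k'.e.mf b1))
  have hρ : 0 < min (r / 2) ((η - |l x|) / 3) := lt_min (half_pos hr) (by linarith)
  have hs' : closedBall (k'.e.f x) (2 * min (r / 2) ((η - |l x|) / 3)) ∩ up ⊆ k'.O' :=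
    (inter_subset_inter_left _ (closedBall_subset_closedBall (by linarith [min_le_left (r / 2) ((η - |l x|) / 3)]))).trans hs
  refine ⟨_, inter_mem (ro_nhds (ro_pre k'.opn k'.e.pf.1 isOpen_ball) ⟨b1, mem_ball_self hρ⟩)
    ((hI.pl.1 x (fam_sub hF hx)).eventually (hA.mem_nhds h1)), fun K hK => ⟨k', _, _, hρ,
      fun y hy => a2 (b2 hy).1, fun y hy => b3 ▸ a3 y (b2 hy).1, hs', ?_, fun y hy => (hK hy).1, ?_⟩⟩
  · rw [b3, a3 x a1]
    linarith [min_le_right (r / 2) ((η - |l x|) / 3)]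
  · rintro _ ⟨y, hy, rfl⟩ ⟨w, hw, e⟩
    exact disjoint_left.1 h3 (hK hy).2 (e ▸ (b2 (k'.e.mg (hs' hw))).2)

/-- **GP** -/
theorem gpStmt : GPStmt := by
  intro E _ _ _ Γ _ W dW G c t U l η _ hG hc hI hF
  classical
  have hη := hF.pos
  have sW := fam_sub hF
  have cC := hF.cpt (η / 2) (half_lt_self hη)
  set C := {x | x ∈ U ∧ |l x| ≤ η / 2}
  have cK : IsCompact (C ∩ t '' C) :=
    cC.inter_right (cC.image_of_continuousOn (hI.pl.1.mono fun x hx => sW hx.1)).isClosed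
  have hU : C ∩ t '' C ⊆ U ∩ t ⁻¹' U := by
    rintro _ ⟨h, x, hx, rfl⟩
    exact ⟨h.1, by rw [mem_preimage, hI.inv x (sW hx.1)]; exact hx.1⟩
  have hb : ∀ x, ∃ K, x ∈ C ∩ t '' C → K ∈ 𝓝[C ∩ t '' C] x ∧ IsCompact K ∧ K ⊆ C ∩ t '' C ∧
      Box W dW U l t η K := fun x => by
    by_cases hx : x ∈ C ∩ t '' C
    · obtain ⟨N, h1, h2⟩ := exists_box hI hF hx.1.1 (hx.1.2.trans_lt (half_lt_self hη))
      obtain ⟨r, hr, hs⟩ := (nhdsWithin_hasBasis nhds_basis_closedBall W).mem_iff.1 h1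
      exact ⟨closedBall x r ∩ (C ∩ t '' C), fun _ => ⟨inter_mem (mem_nhdsWithin_of_mem_nhds
        (closedBall_mem_nhds x hr)) self_mem_nhdsWithin, cK.inter_left isClosed_closedBall,
        inter_subset_right, h2 _ fun y hy => hs ⟨hy.1, sW hy.2.1.1⟩⟩⟩
    · exact ⟨∅, fun h => absurd h hx⟩
  choose K hK using hb
  obtain ⟨T, T1, T2⟩ := cK.elim_nhdsWithin_subcover K fun x hx => (hK x hx).1
  have key : ∀ s ⊆ T, ∀ δ > 0, ∃ l', Fam W dW G c U l' η ∧ (∀ x, |l' x - l x| ≤ δ) ∧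
      (∀ x ∈ T, Box W dW U l' t η (K x)) ∧ ∀ x ∈ s, TrOn W dW U l' t (K x) := by
    intro s
    induction s using Finset.induction_on with
    | empty => exact fun _ δ h => ⟨l, hF, by simp [h.le], fun x hx => (hK x (T1 x hx)).2.2.2, by simp⟩
    | insert i s hi ih =>
      intro hs δ hδ
      obtain ⟨l', a1, a2, a3, a4⟩ := ih ((Finset.subset_insert _ _).trans hs) _ (half_pos hδ)
      have iT := hs (Finset.mem_insert_self _ _)
      have kW : ∀ x ∈ T, K x ⊆ W := fun x hx y hy => sW ((hK x (T1 x hx)).2.2.1 hy).1.1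
      obtain ⟨χ, b1, b2, b3, b4, b5⟩ := step hG hc hI a1 (a3 i iT) (kW i iT)
      obtain ⟨F, f1, f2⟩ := tr_dense a1 hI (hK i (T1 i iT)).2.1 ((hK i (T1 i iT)).2.2.1.trans hU) b3
      obtain ⟨a, hF', c1, c2, c3, c4⟩ := f1.countable.dense_compl ℝ |>.inter_nhds_nonempty
        (b4.and (((eventually_all_finset T).2 fun x hx =>
          b5 _ (hK x (T1 x hx)).2.1 (kW x hx) (a3 x hx)).and (((eventually_all_finset s).2 fun x hx =>
            have := T1 x (hs (Finset.mem_insert_of_mem hx))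
            tr_open a1 hI b1 (hK x this).2.1 ((hK x this).2.2.1.trans hU) (a4 x hx)).and
              (continuous_abs.continuousAt.eventually_lt continuousAt_const
                (by simpa using half_pos hδ : |(0 : ℝ)| < δ / 2)))))
      refine ⟨_, c1, fun x => ?_, c2, fun x hx => (Finset.mem_insert.1 hx).elim (· ▸ f2 a hF') (c3 x)⟩
      have := mul_le_mul c4.le (b2 x) (abs_nonneg _) (half_pos hδ).le
      rw [sub_right_comm]
      exact (abs_sub _ _).trans (by rw [abs_mul]; linarith [a2 x])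
  obtain ⟨l', a1, a2, -, a4⟩ := key T subset_rfl _ (half_pos hη)
  refine ⟨U, l', η, a1, fun x hx => ?_⟩
  have m : ∀ y ∈ U, l' y = 0 → y ∈ C := fun y hy e => ⟨hy, by simpa [e] using a2 y⟩
  obtain ⟨i, hi, h⟩ := mem_iUnion₂.1 (T2 ⟨m x hx.1 hx.2.2.1, _, m _ hx.2.1 hx.2.2.2, hI.inv x (sW hx.1)⟩)
  exact a4 i hi x h hx.2.2.1 hx.2.2.2

end Crest.Agent.X212.Gp83
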