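import Crest.Agent.X212.Dsc4.St
import Crest.Agent.X212.Lad50.PL
import Crest.Agent.R096.Sk1_962

/-!
# X212 / Gp83 (helper83), part 1: PL homeomorphisms of three-space used for general position
-/

set_option autoImplicit false
set_option linter.unusedSectionVars false

open Set Metric Topology Filter
open scoped NNReal

namespace Crest.Agent.X212.Gp83

open Crest.Agent.R096 Crest.Agent.R096.Ce_537 Crest.Agent.X212.Lad50
open Crest.Agent.X212.Prd34 (V up)
open Crest.Agent.X212.Dsc4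

/-- a small Lipschitz perturbation of the identity -/
theorem exists_homeo {ψ : V → V} (hp : PLOn ψ univ) {c : ℝ≥0} (hl : LipschitzWith c ψ) (hc : c < 1) :
    ∃ H : PLEquiv (univ : Set V) (univ : Set V), ∀ y, H.f y = y - ψ y := by
  have k : ∀ z, ContractingWith c fun y => z + ψ y := fun z =>
    ⟨hc, LipschitzWith.of_dist_le_mul fun x y => by rw [dist_add_left]; exact hl.dist_le_mul x y⟩
  obtain ⟨H, hH⟩ := Cx_609.exists_equiv_of_bijOn (t := univ) convex_univ.finConv isClosed_univ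
    (pl_sub (plOn_id _) hp) ⟨mapsTo_univ _ _, fun x _ y _ e => (k (x - ψ x)).fixedPoint_unique'
      (sub_add_cancel _ _) (by rw [show x - ψ x = y - ψ y from e]; exact sub_add_cancel _ _),
      fun z _ => ⟨_, mem_univ _, sub_eq_of_eq_add ((k z).fixedPoint_isFixedPt).symm⟩⟩
  exact ⟨H, congrFun hH⟩

/-- a germ of a PL map extends to a global Lipschitz PL map -/
theorem ext_lip {X : Type*} [NormedAddCommGroup X] [NormedSpace ℝ X] {F : V → X} {O : Set V} {z : V}
    (hz : z ∈ up) (hO : O ∈ 𝓝[up] z) (hF : PLOn F O) :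
    ∃ (F' : V → X) (C : ℝ≥0), PLOn F' univ ∧ LipschitzWith C F' ∧ F' =ᶠ[𝓝[up] z] F ∧
      ∀ y, ∃ y' ∈ O, F' y = F y' := by
  obtain ⟨r, hr, hs⟩ := (nhdsWithin_hasBasis nhds_basis_closedBall up).mem_iff.1 hO
  let lo : V := fun i => if i = 2 then max 0 (z 2 - r) else z i - r
  let hi : V := fun i => z i + r
  have h1 : ∀ y, y ∈ Icc lo hi ↔ y ∈ closedBall z r ∩ up := fun y => by
    rw [closedBall_pi _ hr.le]
    simp only [mem_Icc, Pi.le_def, Fin.forall_fin_succ, lo, hi, mem_inter_iff, Set.mem_pi, mem_univ,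
      Real.closedBall_eq_Icc, up, mem_ofPred_eq]
    simp
    tauto
  have h0 : lo ≤ hi := ((h1 z).2 ⟨mem_closedBall_self hr.le, hz⟩).1.trans
    ((h1 z).2 ⟨mem_closedBall_self hr.le, hz⟩).2
  let P : V → V := fun y i => max (lo i) (min (hi i) (y i))
  have p1 : ∀ y, P y ∈ Icc lo hi := fun y =>
    ⟨fun i => le_max_left _ _, fun i => max_le (h0 i) (min_le_left _ _)⟩
  have p2 : PLOn P univ := pl_pi fun i =>
    pl_max (plOn_const _ _) (pl_min (plOn_const _ _) (pl_coord i _))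
  have p3 : LipschitzWith 1 P := LipschitzWith.of_dist_le_mul fun x y => by
    rw [NNReal.coe_one, one_mul, dist_pi_le_iff dist_nonneg]
    intro i
    have := (((LipschitzWith.eval (α := fun _ : Fin 3 => ℝ) i).const_min (hi i)).const_max
      (lo i)).dist_le_mul x y
    simpa using this
  have h2 : Icc lo hi ⊆ O := fun y hy => hs ((h1 y).1 hy)
  obtain ⟨hc, S, hS⟩ := hF.mono h2
  obtain ⟨C, hC⟩ := Sk_962.lipschitzOn_of_sel (convex_Icc lo hi) hc hS
  refine ⟨fun y => F (P y), C * 1, (hF.mono h2).comp p2 fun y _ => p1 y,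
    lipschitzOnWith_univ.1 (hC.comp p3.lipschitzOnWith fun y _ => p1 y), ?_,
    fun y => ⟨_, h2 (p1 y), rfl⟩⟩
  filter_upwards [inter_mem_nhdsWithin up (closedBall_mem_nhds z hr)] with y hy
  have := (h1 y).2 ⟨hy.2, hy.1⟩
  exact congrArg F (funext fun i => by simp only [P, min_eq_right (this.2 i), max_eq_right (this.1 i)])

theorem aff_add (α : V →ᵃ[ℝ] ℝ) (w d : V) (s : ℝ) : α (w + s • d) = α w + s * α.linear d := by
  rw [add_comm w, ← vadd_eq_add, α.map_vadd, map_smul, vadd_eq_add, add_comm, smul_eq_mul]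

/-- a function with a shear direction is a coordinate -/
theorem shear {f : V → ℝ} {O : Set V} {z v : V} (hz : z ∈ up) (hO : O ∈ 𝓝[up] z) (hf : PLOn f O)
    (v0 : v 0 = 0) (v2 : z 2 = 0 → v 2 = 0) (hv : v ≠ 0)
    (hs : ∀ w ∈ O, ∀ s : ℝ, w + s • v ∈ O → f (w + s • v) = f w + s) :
    ∃ H : PLEquiv (univ : Set V) (univ : Set V), (z 2 = 0 → ∀ y, H.f y 2 = y 2) ∧
      (z 2 ≠ 0 → 0 < H.f z 2) ∧ ∀ᶠ y in 𝓝[up] z, H.f y 0 = f y - f z ∧ H.f y 1 = y 0 := by
  obtain ⟨f', -, p1, -, p2, -⟩ := ext_lip hz hO hf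
  have hn : v 1 ^ 2 + v 2 ^ 2 ≠ 0 := fun h => hv (by
    ext i
    fin_cases i
    exacts [v0, by simp; nlinarith [sq_nonneg (v 1), sq_nonneg (v 2)],
      by simp; nlinarith [sq_nonneg (v 1), sq_nonneg (v 2)]])
  obtain ⟨κ, γ, hκ, k1, k2⟩ : ∃ κ γ : ℝ, κ ≠ 0 ∧ (z 2 = 0 → κ = v 1 ∧ γ = 0) ∧ (z 2 ≠ 0 → γ = 1) := by
    by_cases h : z 2 = 0
    · exact ⟨v 1, 0, fun e => hn (by simp [e, v2 h]), fun _ => ⟨rfl, rfl⟩, fun h' => absurd h h'⟩
    · exact ⟨1, 1, one_ne_zero, fun h' => absurd h' h, fun _ => rfl⟩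
  set n := v 1 ^ 2 + v 2 ^ 2 with en
  let lam : V → ℝ := fun y => n⁻¹ * (v 1 * (y 1 - z 1) + v 2 * (y 2 - z 2))
  have l1 : ∀ (y : V) (s : ℝ), lam (y + s • v) = lam y + s := fun y s => by
    simp only [lam, Pi.add_apply, Pi.smul_apply, smul_eq_mul]
    field_simp
    ring
  have c : ∀ i K, PLOn (fun y : V => y i - z i) K := fun i K => pl_sub (pl_coord i K) (plOn_const _ _)
  have l2 : PLOn lam univ := pl_mul _ (pl_add (pl_mul _ (c 1 _)) (pl_mul _ (c 2 _)))
  let P : V → V := fun y => y + (-lam y) • v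
  have q1 : PLOn P univ := pl_add (plOn_id _) (pl_smul_const (pl_neg l2) v)
  let φ : V → ℝ := fun y => f' (P y) - f z
  have q2 : PLOn φ univ := pl_sub (p1.comp q1 (mapsTo_univ _ _)) (plOn_const _ _)
  have q3 : ∀ (y : V) (s : ℝ), φ (y + s • v) = φ y := fun y s => by
    simp only [φ, P, l1]
    congr 2
    module
  let Ψ : PLEquiv (univ : Set V) (univ : Set V) :=
    ⟨fun y => y + φ y • v, fun y => y + (-φ y) • v, pl_add (plOn_id _) (pl_smul_const q2 v),
      pl_add (plOn_id _) (pl_smul_const (pl_neg q2) v), mapsTo_univ _ _, mapsTo_univ _ _,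
      fun y _ => by rw [q3]; module, fun y _ => by rw [q3]; module⟩
  let T : PLEquiv (univ : Set V) (univ : Set V) :=
    ⟨fun y => ![lam y, y 0, κ⁻¹ * (v 1 * (y 2 - z 2) - v 2 * (y 1 - z 1)) + γ],
      fun u => ![u 1, z 1 + (v 1 * u 0 - v 2 * κ / n * (u 2 - γ)), z 2 + (v 2 * u 0 + v 1 * κ / n * (u 2 - γ))],
      pl_vec3 l2 (pl_coord 0 _) (pl_add (pl_mul _ (pl_sub (pl_mul _ (c 2 _)) (pl_mul _ (c 1 _))))
        (plOn_const _ _)),
      pl_vec3 (pl_coord 1 _) (pl_add (plOn_const _ _) (pl_sub (pl_mul _ (pl_coord 0 _))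
        (pl_mul _ (pl_sub (pl_coord 2 _) (plOn_const _ _))))) (pl_add (plOn_const _ _)
          (pl_add (pl_mul _ (pl_coord 0 _)) (pl_mul _ (pl_sub (pl_coord 2 _) (plOn_const _ _))))),
      mapsTo_univ _ _, mapsTo_univ _ _,
      fun y _ => by
        ext i
        fin_cases i <;> simp [lam] <;> field_simp <;> ring,
      fun y _ => by
        ext i
        fin_cases i <;> simp [lam] <;> field_simp <;> ring⟩
  refine ⟨Ψ.trans T, fun h y => ?_, fun h => ?_, ?_⟩
  · have := (k1 h).1 ▸ hκ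
    simp [PLEquiv.trans, T, Ψ, k1 h, v2 h, h, this]
  · simp [PLEquiv.trans, T, Ψ, k2 h, mul_comm, mul_left_comm]
  · have t : Tendsto P (𝓝[up] z) (𝓝[up] z) := by
      have pz : P z = z := by simp [P, lam]
      have hc : ContinuousAt P z := (continuousOn_univ.1 q1.1).continuousAt
      refine tendsto_nhdsWithin_iff.2 ⟨Tendsto.mono_left (by simpa only [pz] using hc.tendsto)
        nhdsWithin_le_nhds, ?_⟩
      by_cases h : z 2 = 0
      · filter_upwards [self_mem_nhdsWithin] with y hy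
        simpa [P, up, v2 h] using hy
      · refine (hc.eventually ?_).filter_mono nhdsWithin_le_nhds
        rw [pz]
        exact ((continuous_apply 2).continuousAt.eventually
          (lt_mem_nhds (lt_of_le_of_ne hz (Ne.symm h)))).mono fun y hy => le_of_lt hy
    filter_upwards [hO, t.eventually hO, t.eventually p2] with y h1 h2 h3
    have e : P y + lam y • v = y := by simp only [P]; module
    have := hs _ h2 (lam y) (e.symm ▸ h1)
    rw [e] at this
    refine ⟨?_, by simp [PLEquiv.trans, T, Ψ, v0]⟩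
    show lam (y + φ y • v) = _
    rw [l1, this]
    simp only [φ, h3]
    ring

/-- all but finitely many levels of a PL function are transverse to the plane `y 0 = 0` -/
theorem dens {f : V → ℝ} {O : Set V} (hO : ROpen up O) (hf : PLOn f O) :
    ∃ F : Set ℝ, F.Finite ∧ ∀ z ∈ O, z 0 = 0 → f z ∉ F →
      ∃ H : PLEquiv (univ : Set V) (univ : Set V), (z 2 = 0 → ∀ y, H.f y 2 = y 2) ∧
        (z 2 ≠ 0 → 0 < H.f z 2) ∧ ∀ᶠ y in 𝓝[up] z, H.f y 0 = f y - f z ∧ H.f y 1 = y 0 := by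
  classical
  obtain ⟨hc, S, hS⟩ := hf
  let A : Finset (V →ᵃ[ℝ] ℝ) → Prop → Set V := fun I b =>
    {y | y 0 = 0 ∧ (b → y 2 = 0) ∧ ∀ α ∈ I, ∀ β ∈ I, α y = β y}
  refine ⟨⋃ I ∈ S.powerset, ⋃ b : Prop, ⋃ α ∈ S, {a | (A I b).Nonempty ∧ ∀ y ∈ A I b, α y = a},
    S.powerset.finite_toSet.biUnion fun I _ => finite_iUnion fun b => S.finite_toSet.biUnion fun α _ =>
      Set.Subsingleton.finite fun a ha a' ha' => ?_, fun z hz z0 hF => ?_⟩
  · obtain ⟨y, hy⟩ := ha.1
    exact (ha.2 y hy).symm.trans (ha'.2 y hy)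
  obtain ⟨B, hB, rfl⟩ := hO
  have hO : B ∩ up ∈ 𝓝[up] z := inter_mem (mem_nhdsWithin_of_mem_nhds (hB.mem_nhds hz.1)) self_mem_nhdsWithin
  let I := S.filter fun α => α z = f z
  obtain ⟨α₀, h0, e0⟩ := hS z hz
  have zA : z ∈ A I (z 2 = 0) := ⟨z0, id, fun α hα β hβ =>
    (Finset.mem_filter.1 hα).2.trans (Finset.mem_filter.1 hβ).2.symm⟩
  obtain ⟨y, hy, hne⟩ : ∃ y ∈ A I (z 2 = 0), α₀ y ≠ f z := by
    by_contra! h
    exact hF (mem_biUnion (Finset.mem_powerset.2 (Finset.filter_subset _ _))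
      (mem_iUnion.2 ⟨z 2 = 0, mem_biUnion h0 ⟨⟨z, zA⟩, h⟩⟩))
  have hne' := sub_ne_zero.2 hne
  let v : V := (α₀ y - f z)⁻¹ • (y - z)
  have lv : ∀ α ∈ I, α.linear v = 1 := fun α hα => by
    rw [map_smul, ← vsub_eq_sub y z, α.linearMap_vsub, vsub_eq_sub, (Finset.mem_filter.1 hα).2,
      hy.2.2 α hα α₀ (Finset.mem_filter.2 ⟨h0, e0.symm⟩), smul_eq_mul, inv_mul_cancel₀ hne']
  have h1 : ∀ᶠ w in 𝓝[up] z, ∀ α ∈ S, f w = α w → α ∈ I := by
    refine (eventually_all_finset S).2 fun α hα => ?_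
    by_cases h : α z = f z
    · exact Eventually.of_forall fun _ _ => Finset.mem_filter.2 ⟨hα, h⟩
    · have := ((hc z hz).mono_of_mem_nhdsWithin hO).sub
        α.continuous_of_finiteDimensional.continuousWithinAt
      exact (this.eventually_ne (sub_ne_zero.2 (Ne.symm h))).mono fun w hw e =>
        absurd (sub_eq_zero.2 e) hw
  obtain ⟨r, hr, hs⟩ := nhdsWithin_basis_ball.mem_iff.1 (inter_mem hO h1)
  have cv : Convex ℝ (ball z r ∩ up) :=
    (convex_ball _ _).inter (convex_halfSpace_ge (LinearMap.proj (R := ℝ) (φ := fun _ : Fin 3 => ℝ) 2).isLinear 0)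
  refine shear (v := v) hz.2 (inter_mem (mem_nhdsWithin_of_mem_nhds (ball_mem_nhds z hr))
    self_mem_nhdsWithin) (PLOn.mono ⟨hc, S, hS⟩ fun w hw => (hs hw).1) (by simp [v, hy.1, z0])
    (fun h => by simp [v, hy.2.1 h, h]) (fun h => by simpa [h] using lv α₀ (Finset.mem_filter.2 ⟨h0, e0.symm⟩))
    fun w hw s hs' => ?_
  have m : ∀ τ ∈ Icc (0 : ℝ) 1, w + (τ * s) • v ∈ ball z r ∩ up := fun τ hτ => by
    rw [mul_smul]
    exact cv.add_smul_mem hw hs' hτ
  have := isPreconnected_Icc.constant_of_mapsTo (T := (fun α : V →ᵃ[ℝ] ℝ => α w) '' I)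
    (f := fun τ : ℝ => f (w + (τ * s) • v) - τ * s) (I.finite_toSet.image _).isDiscrete
    ((hc.comp (by fun_prop) fun τ hτ => (hs (m τ hτ)).1).sub (by fun_prop)) (fun τ hτ => by
      obtain ⟨α, hα, e⟩ := hS _ (hs (m τ hτ)).1
      have hI := (hs (m τ hτ)).2 α hα e
      exact ⟨α, hI, by simp only [e, aff_add, lv α hI]; ring⟩)
    (left_mem_Icc.2 zero_le_one) (right_mem_Icc.2 zero_le_one)
  simp only [zero_mul, zero_smul, add_zero, sub_zero, one_mul] at this
  linarith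

end Crest.Agent.X212.Gp83
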