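import Crest.Agent.X212.Gp83.A

/-!
# X212 / Gp83 (helper83), part 2: charts, shifts in a box, transport of families
-/

set_option autoImplicit false
set_option linter.unusedSectionVars false

open Set Metric Topology Filter
open scoped NNReal

namespace Crest.Agent.X212.Gp83

open Crest.Agent.R096 Crest.Agent.R096.Ce_537 Crest.Agent.X212.Lad50
open Crest.Agent.X212.Prd34 (V up)
open Crest.Agent.X212.Dsc4
open Crest.Agent.X212.Lev33 (Coc Prim)

variable {E : Type} [NormedAddCommGroup E] [NormedSpace ℝ E] {W dW : Set E}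

theorem ro_sub {X : Type*} [TopologicalSpace X] {W O : Set X} (h : ROpen W O) : O ⊆ W := by
  obtain ⟨A, -, rfl⟩ := h
  exact inter_subset_right

theorem ro_nhds {X : Type*} [TopologicalSpace X] {W O : Set X} (h : ROpen W O) {x : X} (hx : x ∈ O) :
    O ∈ 𝓝[W] x := by
  obtain ⟨A, hA, rfl⟩ := h
  exact inter_mem (mem_nhdsWithin_of_mem_nhds (hA.mem_nhds hx.1)) self_mem_nhdsWithin

theorem ro_pre {X Y : Type*} [TopologicalSpace X] [TopologicalSpace Y] {W O : Set X} (h : ROpen W O)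
    {f : X → Y} (hf : ContinuousOn f O) {A : Set Y} (hA : IsOpen A) : ROpen W (O ∩ f ⁻¹' A) := by
  obtain ⟨B, hB, e⟩ := continuousOn_iff'.1 hf A hA
  obtain ⟨C, hC, rfl⟩ := h
  exact ⟨B ∩ C, hB.inter hC, by rw [inter_comm, e, inter_assoc]⟩

theorem tendsto_e (k : Ch W dW) {x : E} (hx : x ∈ k.O) : Tendsto k.e.f (𝓝[W] x) (𝓝[up] (k.e.f x)) :=
  tendsto_nhdsWithin_iff.2 ⟨(k.e.pf.1 x hx).mono_of_mem_nhdsWithin (ro_nhds k.opn hx),
    mem_of_superset (ro_nhds k.opn hx) fun _ hy => ro_sub k.opn' (k.e.mf hy)⟩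

/-- restriction of a chart -/
noncomputable def restr (k : Ch W dW) {A : Set E} (hA : IsOpen A) : Ch W dW where
  O := k.O ∩ A
  O' := k.O' ∩ k.e.g ⁻¹' A
  e := k.e.restr inter_subset_left inter_subset_left
    (fun x hx => ⟨k.e.mf hx.1, by rw [mem_preimage, k.e.li x hx.1]; exact hx.2⟩)
    fun _ hy => ⟨k.e.mg hy.1, hy.2⟩
  opn := ro_pre k.opn continuousOn_id hA
  opn' := ro_pre k.opn' k.e.pg.1 hA
  bd := fun x hx => k.bd x hx.1

theorem exists_restr (k : Ch W dW) {x : E} (hx : x ∈ k.O) {N : Set E} (hN : N ∈ 𝓝[W] x) :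
    ∃ k' : Ch W dW, x ∈ k'.O ∧ k'.O ⊆ k.O ∩ N ∧ k'.e.f = k.e.f := by
  obtain ⟨A, hA, h1, h2⟩ := mem_nhdsWithin.1 hN
  exact ⟨restr k hA, ⟨hx, h1⟩, fun y hy => ⟨hy.1, h2 ⟨hy.2, ro_sub k.opn hy.1⟩⟩, rfl⟩

theorem image_univ_eq (H : PLEquiv (univ : Set V) (univ : Set V)) (A : Set V) : H.f '' A = H.g ⁻¹' A :=
  Subset.antisymm (by rintro _ ⟨y, hy, rfl⟩; rwa [mem_preimage, H.li y trivial])
    fun y hy => ⟨_, hy, H.ri y trivial⟩

/-- post-composition of a chart -/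
noncomputable def post (k : Ch W dW) (H : PLEquiv (univ : Set V) (univ : Set V))
    (h : (∀ y, H.f y 2 = y 2) ∨ ∀ x ∈ k.O, 0 < k.e.f x 2 ∧ 0 < H.f (k.e.f x) 2) : Ch W dW where
  O := k.O
  O' := H.f '' k.O'
  e := k.e.trans (H.restrImage (subset_univ _))
  opn := k.opn
  opn' := by
    have c := continuousOn_univ.1 H.pg.1
    obtain ⟨A, hA, e⟩ := k.opn'
    rcases h with h | h
    · refine ⟨H.g ⁻¹' A, hA.preimage c, ?_⟩
      rw [image_univ_eq, e, preimage_inter]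
      congr 1
      ext y
      show 0 ≤ H.g y 2 ↔ 0 ≤ y 2
      rw [← h (H.g y), H.ri y trivial]
    · have h' : ∀ y ∈ k.O', 0 < y 2 ∧ 0 < H.f y 2 := fun y hy => k.e.ri y hy ▸ h _ (k.e.mg hy)
      have : k.O' = A ∩ {y | 0 < y 2} := Subset.antisymm (fun y hy => ⟨(e.le hy).1, (h' y hy).1⟩)
        fun y hy => e.ge ⟨hy.1, le_of_lt (b := y 2) hy.2⟩
      refine ⟨H.f '' k.O', ?_, (inter_eq_left.2 ?_).symm⟩
      · rw [image_univ_eq, this]
        exact (hA.inter (isOpen_lt continuous_const (continuous_apply 2))).preimage c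
      · rintro _ ⟨y, hy, rfl⟩
        exact (h' y hy).2.le
  bd := fun x hx => (k.bd x hx).trans (by
    show _ ↔ H.f (k.e.f x) 2 = 0
    rcases h with h | h
    · rw [h]
    · exact iff_of_false (h x hx).1.ne' (h x hx).2.ne')

theorem exists_post (k : Ch W dW) {x : E} (hx : x ∈ k.O) (H : PLEquiv (univ : Set V) (univ : Set V))
    (h1 : k.e.f x 2 = 0 → ∀ y, H.f y 2 = y 2) (h2 : k.e.f x 2 ≠ 0 → 0 < H.f (k.e.f x) 2) {N : Set E}
    (hN : N ∈ 𝓝[W] x) : ∃ k' : Ch W dW, x ∈ k'.O ∧ k'.O ⊆ k.O ∩ N ∧ ∀ y, k'.e.f y = H.f (k.e.f y) := by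
  by_cases h : k.e.f x 2 = 0
  · obtain ⟨k', a, b, c⟩ := exists_restr k hx hN
    exact ⟨post k' H (Or.inl (h1 h)), a, b, fun y => c ▸ rfl⟩
  · have t := (tendsto_e k hx).mono_right nhdsWithin_le_nhds
    have c2 : Continuous fun y : V => y 2 := continuous_apply 2
    obtain ⟨k', a, b, c⟩ := exists_restr k hx (inter_mem hN ((t.eventually (c2.continuousAt.eventually
      (lt_mem_nhds (lt_of_le_of_ne (ro_sub k.opn' (k.e.mf hx)) (Ne.symm h))))).and
      (t.eventually ((c2.comp (continuousOn_univ.1 H.pf.1)).continuousAt.eventually (lt_mem_nhds (h2 h))))))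
    exact ⟨post k' H (Or.inr fun y hy => c ▸ (b hy).2.2), a, fun y hy => ⟨(b hy).1, (b hy).2.1⟩,
      fun y => congrArg H.f (congrFun c y)⟩

/-- pull-back of a chart -/
noncomputable def pre (k : Ch W dW) (q : PLEquiv W W) (hq : ∀ x ∈ W, q.f x ∈ dW ↔ x ∈ dW) : Ch W dW where
  O := W ∩ q.f ⁻¹' k.O
  O' := k.O'
  e := (q.restr inter_subset_left (ro_sub k.opn) (fun _ hx => hx.2) fun y hy =>
    ⟨q.mg (ro_sub k.opn hy), show q.f (q.g y) ∈ k.O by rwa [q.ri y (ro_sub k.opn hy)]⟩).trans k.e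
  opn := by
    obtain ⟨A, hA, e⟩ := k.opn
    have := ro_pre ⟨univ, isOpen_univ, (univ_inter W).symm⟩ q.pf.1 hA
    convert this using 1
    ext x
    exact and_congr_right fun hx => by rw [e]; exact and_iff_left (q.mf hx)
  opn' := k.opn'
  bd := fun x hx => (hq x hx.1).symm.trans (k.bd _ hx.2)

/-- extension by a fixed map off a closed subset of a relatively open set -/
theorem cont_if {X Y : Type*} [TopologicalSpace X] [TopologicalSpace Y] {W O S : Set X}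
    (hO : ∀ x ∈ O, O ∈ 𝓝[W] x) (hS : IsClosed S) (hSO : W ∩ S ⊆ O) {f g h : X → Y} (hf : ContinuousOn f O)
    (hg : ContinuousOn g W) (h1 : ∀ x ∈ O, h x = f x) (h2 : ∀ x ∈ W, x ∉ S → h x = g x) :
    ContinuousOn h W := fun x hx => by
  by_cases a : x ∈ S
  · have b := hSO ⟨hx, a⟩
    exact ((hf x b).mono_of_mem_nhdsWithin (hO x b)).congr_of_eventuallyEq
      (mem_of_superset (hO x b) h1) (h1 x b)
  · exact (hg x hx).congr_of_eventuallyEq (by
      filter_upwards [self_mem_nhdsWithin, mem_nhdsWithin_of_mem_nhds (hS.isOpen_compl.mem_nhds a)]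
        with y h h' using h2 y h h') (h2 x hx a)

theorem pl_if {F : Type*} [NormedAddCommGroup F] [NormedSpace ℝ F] {O S : Set E} (hO : ROpen W O)
    (hS : IsClosed S) (hSO : S ⊆ O) {f g h : E → F} (hf : PLOn f O) (hg : PLOn g W)
    (h1 : ∀ x ∈ O, h x = f x) (h2 : ∀ x ∈ W, x ∉ S → h x = g x) : PLOn h W := by
  classical
  refine ⟨cont_if (fun x => ro_nhds hO) hS (inter_subset_right.trans hSO) hf.1 hg.1 h1 h2, ?_⟩
  obtain ⟨-, A, hA⟩ := hf
  obtain ⟨-, B, hB⟩ := hg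
  refine ⟨A ∪ B, fun x hx => ?_⟩
  by_cases a : x ∈ S
  · obtain ⟨α, hα, e⟩ := hA x (hSO a)
    exact ⟨α, Finset.mem_union_left _ hα, (h1 x (hSO a)).trans e⟩
  · obtain ⟨α, hα, e⟩ := hB x hx
    exact ⟨α, Finset.mem_union_right _ hα, (h2 x hx a).trans e⟩

/-- a shift in the first coordinate, supported in a box of a chart -/
structure Shift (k : Ch W dW) (c : V) (ρ : ℝ) (S : Set E) (g : ℝ → E → E) (χ : E → ℝ) : Prop where
  cont : ContinuousOn (fun p : ℝ × E => g p.1 p.2) (Icc (-ρ) ρ ×ˢ W)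
  zero : ∀ x, g 0 x = x
  pl : PLOn χ W
  le : ∀ x, |χ x| ≤ 1
  one : ∀ x ∈ k.O, k.e.f x ∈ ball c ρ → χ x = 1
  off : ∀ x ∉ S, χ x = 0 ∧ ∀ a, g a x = x
  on : ∀ a ∈ Icc (-ρ) ρ, ∀ x ∈ S, g a x ∈ S ∧ k.e.f (g a x) 0 = k.e.f x 0 - a * χ x ∧
    k.e.f (g a x) 2 = k.e.f x 2
  eqv : ∀ a, |a| < ρ → ∃ q : PLEquiv W W, ∀ x ∈ W, q.f x = g a x

theorem exists_shift (k : Ch W dW) {c : V} {ρ : ℝ} (hρ : 0 < ρ) (hB : closedBall c (2 * ρ) ∩ up ⊆ k.O') :
    ∃ g χ, Shift k c ρ (k.e.g '' (closedBall c (2 * ρ) ∩ up)) g χ := by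
  classical
  set B := closedBall c (2 * ρ) ∩ up with eB
  let β : V → ℝ := fun y => max 0 (min 1 (2 - ρ⁻¹ * ‖y - c‖))
  let e0 : V := Pi.single 0 1
  have n0 : ‖e0‖ = 1 := by simp [e0, Pi.norm_single]
  have b1 : ∀ K, PLOn β K := fun K => pl_max (plOn_const _ _) (pl_min (plOn_const _ _)
    (pl_sub (plOn_const _ _) (pl_mul _ (pl_norm (pl_sub (plOn_id _) (plOn_const _ _))))))
  have b2 : ∀ y, |β y| ≤ 1 := fun y =>
    abs_le.2 ⟨neg_one_lt_zero.le.trans (le_max_left _ _), max_le zero_le_one (min_le_left _ _)⟩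
  have b3 : ∀ y, y ∉ closedBall c (2 * ρ) → β y = 0 := fun y hy => by
    rw [mem_closedBall_iff_norm, not_le, ← lt_inv_mul_iff₀' hρ] at hy
    exact max_eq_left ((min_le_right _ _).trans (by linarith))
  have b4 : ∀ a ∈ Icc (-ρ) ρ, ∀ y ∈ B, y - (a * β y) • e0 ∈ B := fun a ha y hy => by
    refine ⟨?_, by simpa [up, e0] using hy.2⟩
    have h1 := mem_closedBall_iff_norm.1 hy.1
    have h2 : |β y| ≤ 2 - ρ⁻¹ * ‖y - c‖ := by
      rw [abs_of_nonneg (le_max_left _ _)]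
      exact max_le (sub_nonneg.2 ((inv_mul_le_iff₀' hρ).2 h1)) (min_le_right _ _)
    have h3 := mul_le_mul (abs_le.2 ha) h2 (abs_nonneg _) hρ.le
    rw [mul_sub, mul_inv_cancel_left₀ hρ.ne'] at h3
    rw [mem_closedBall_iff_norm, sub_right_comm]
    refine (norm_sub_le _ _).trans ?_
    rw [norm_smul, n0, Real.norm_eq_abs, abs_mul]
    linarith
  have b5 : ∀ a ∈ Icc (-ρ) ρ, ∀ y ∈ k.O', y - (a * β y) • e0 ∈ k.O' := fun a ha y hy => by
    by_cases h : y ∈ closedBall c (2 * ρ)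
    · exact hB (b4 a ha y ⟨h, ro_sub k.opn' hy⟩)
    · simpa [b3 y h] using hy
  have cB : IsCompact B := (isCompact_closedBall _ _).inter_right
    (isClosed_le continuous_const (continuous_apply 2))
  have cS : IsClosed (k.e.g '' B) := (cB.image_of_continuousOn (k.e.pg.1.mono hB)).isClosed
  have sS : k.e.g '' B ⊆ k.O := by rintro _ ⟨y, hy, rfl⟩; exact k.e.mg (hB hy)
  have o1 : ∀ x ∈ k.O, x ∉ k.e.g '' B → k.e.f x ∉ closedBall c (2 * ρ) := fun x hx h h' =>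
    h ⟨_, ⟨h', ro_sub k.opn' (k.e.mf hx)⟩, k.e.li x hx⟩
  have ext : ∀ f : V → V, PLOn f univ → MapsTo f k.O' k.O' → (∀ y ∉ closedBall c (2 * ρ), f y = y) →
      PLOn (fun x => if x ∈ k.O then k.e.g (f (k.e.f x)) else x) W := fun f h1 h2 h3 =>
    pl_if k.opn cS sS (k.e.pg.comp (h1.comp k.e.pf (mapsTo_univ _ _)) (h2.comp k.e.mf)) (plOn_id W)
      (fun x hx => if_pos hx) fun x _ hx => by
        split_ifs with h
        · rw [h3 _ (o1 x h hx), k.e.li x h]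
        · rfl
  have off : ∀ x ∉ k.e.g '' B, ∀ a : ℝ,
      (if x ∈ k.O then k.e.g (k.e.f x - (a * β (k.e.f x)) • e0) else x) = x := fun x hx a => by
    split_ifs with h
    · simp [b3 _ (o1 x h hx), k.e.li x h]
    · rfl
  have off' : ∀ x ∉ k.e.g '' B, (if x ∈ k.O then β (k.e.f x) else 0) = 0 := fun x hx => by
    split_ifs with h
    exacts [b3 _ (o1 x h hx), rfl]
  refine ⟨fun a x => if x ∈ k.O then k.e.g (k.e.f x - (a * β (k.e.f x)) • e0) else x,
    fun x => if x ∈ k.O then β (k.e.f x) else 0, ?_, fun x => ?_, ?_, fun x => ?_, fun x hx h => ?_,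
    fun x hx => ⟨off' x hx, off x hx⟩, fun a ha x hx => ?_, fun a ha => ?_⟩
  · have c1 : ContinuousOn (fun p : ℝ × E => k.e.f p.2) (Icc (-ρ) ρ ×ˢ k.O) :=
      k.e.pf.1.comp continuousOn_snd fun p hp => hp.2
    refine cont_if (O := Icc (-ρ) ρ ×ˢ k.O) (S := univ ×ˢ (k.e.g '' B)) (fun p hp => ?_)
      (isClosed_univ.prod cS) (fun p hp => ⟨hp.1.1, sS hp.2.2⟩) (k.e.pg.1.comp (c1.sub
        ((continuousOn_fst.mul ((continuousOn_univ.1 (b1 univ).1).comp_continuousOn c1)).smul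
          continuousOn_const)) fun p hp => b5 _ hp.1 _ (k.e.mf hp.2)) continuousOn_snd
      (fun p hp => if_pos hp.2) fun p _ hp => off _ (fun h => hp ⟨trivial, h⟩) _
    rw [nhdsWithin_prod_eq]
    exact prod_mem_prod self_mem_nhdsWithin (ro_nhds k.opn hp.2)
  · split_ifs with h
    · simp [k.e.li x h]
    · rfl
  · exact pl_if k.opn cS sS ((b1 univ).comp k.e.pf (mapsTo_univ _ _)) (plOn_const 0 W)
      (fun x hx => if_pos hx) fun x _ hx => off' x hx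
  · split_ifs
    exacts [b2 _, by simp]
  · rw [mem_ball_iff_norm, ← mul_one ρ, ← inv_mul_lt_iff₀ hρ] at h
    rw [if_pos hx]
    simp only [β]
    rw [min_eq_left (by linarith), max_eq_right zero_le_one]
  · have hx' := sS hx
    have h1 : k.e.f x ∈ B := by
      obtain ⟨y, hy, rfl⟩ := hx
      rwa [k.e.ri y (hB hy)]
    simp only [if_pos hx', k.e.ri _ (hB (b4 a ha _ h1))]
    exact ⟨⟨_, b4 a ha _ h1, rfl⟩, by simp [e0], by simp [e0]⟩
  · obtain ⟨H, hH⟩ := exists_homeo (ψ := fun y => (a * β y) • e0) (c := ⟨|a| * ρ⁻¹, by positivity⟩)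
      (pl_smul_const (pl_mul a (b1 _)) e0) (LipschitzWith.of_dist_le_mul fun y y' => by
        rw [dist_eq_norm, ← sub_smul, norm_smul, n0, mul_one, ← mul_sub, Real.norm_eq_abs, abs_mul]
        refine (mul_le_mul_of_nonneg_left ?_ (abs_nonneg a)).trans_eq (mul_assoc _ _ _).symm
        refine (abs_max_sub_max_le_max _ _ _ _).trans (max_le (by simp; positivity)
          ((abs_min_sub_min_le_max _ _ _ _).trans (max_le (by simp; positivity) ?_)))
        rw [sub_sub_sub_cancel_left, ← mul_sub, abs_mul, abs_of_pos (inv_pos.2 hρ), dist_comm, dist_eq_norm]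
        exact mul_le_mul_of_nonneg_left ((abs_norm_sub_norm_le _ _).trans_eq (by rw [sub_sub_sub_cancel_right]))
          (inv_pos.2 hρ).le) ((mul_inv_lt_iff₀ hρ).2 (by simpa using ha))
    have ha' : a ∈ Icc (-ρ) ρ := abs_le.1 ha.le
    have f1 : ∀ y ∉ closedBall c (2 * ρ), H.f y = y := fun y hy => by simp [hH, b3 y hy]
    have g1 : ∀ y ∉ closedBall c (2 * ρ), H.g y = y := fun y hy => by
      simpa only [f1 y hy] using H.li y trivial
    have f2 : MapsTo H.f k.O' k.O' := fun y hy => hH y ▸ b5 a ha' y hy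
    have g2 : MapsTo H.g k.O' k.O' := fun y hy => by
      by_cases h : H.g y ∈ closedBall c (2 * ρ)
      · refine hB ⟨h, ?_⟩
        have := congrFun ((hH _).symm.trans (H.ri y trivial)) 2
        have h2 : 0 ≤ y 2 := ro_sub k.opn' hy
        simpa [up, e0, ← this] using h2
      · rwa [← f1 _ h, H.ri y trivial]
    have m : ∀ f : V → V, MapsTo f k.O' k.O' →
        MapsTo (fun x => if x ∈ k.O then k.e.g (f (k.e.f x)) else x) W W := fun f h x hx => by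
      by_cases a : x ∈ k.O
      · simpa only [if_pos a] using ro_sub k.opn (k.e.mg (h (k.e.mf a)))
      · simpa only [if_neg a] using hx
    have i : ∀ f f' : V → V, MapsTo f k.O' k.O' → (∀ y, f' (f y) = y) → ∀ x,
        (fun x => if x ∈ k.O then k.e.g (f' (k.e.f x)) else x)
          (if x ∈ k.O then k.e.g (f (k.e.f x)) else x) = x := fun f f' h h' x => by
      by_cases a : x ∈ k.O
      · simp only [if_pos a, if_pos (k.e.mg (h (k.e.mf a))), k.e.ri _ (h (k.e.mf a)), h', k.e.li x a]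
      · simp only [if_neg a]
    exact ⟨⟨_, _, ext _ H.pf f2 f1, ext _ H.pg g2 g1, m _ f2, m _ g2,
      fun x _ => i _ _ f2 (fun y => H.li y trivial) x, fun x _ => i _ _ g2 (fun y => H.ri y trivial) x⟩,
      fun x _ => by simp only [hH]⟩

variable {Γ : Type} [Group Γ] {G U : Set E} {c : E → E → Γ} {l : E → ℝ} {η : ℝ}

theorem fam_sub (h : Fam W dW G c U l η) : U ⊆ W := fun x hx =>
  let ⟨k, h1, _⟩ := h.ch x hx
  ro_sub k.opn h1

/-- transport of a family along a PL homeomorphism -/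
theorem fam_pre (h : Fam W dW G c U l η) (hc : Coc G c) (q : PLEquiv W W)
    (hd : ∀ x ∈ W, q.f x ∈ dW ↔ x ∈ dW) (hU : ∀ x ∈ W, q.f x ∈ U ↔ x ∈ U)
    (hG : ∀ x ∈ W, q.f x ∈ G → x ∈ G) {H : E × ℝ → E} (hH : ContinuousOn H (W ×ˢ Icc 0 1))
    (h0 : ∀ x ∈ W, H (x, 0) = x) (h1 : ∀ x ∈ W, H (x, 1) = q.f x) (hm : MapsTo H (G ×ˢ Icc 0 1) G)
    {l' : E → ℝ} (hl : ∀ x ∈ U, l' x = l (q.f x)) : Fam W dW G c U l' η := by
  have s := fam_sub h
  have key : ∀ P : ℝ → Prop, {x | x ∈ U ∧ P (l' x)} = q.g '' {x | x ∈ U ∧ P (l x)} := fun P => by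
    refine Subset.antisymm (fun x hx => ⟨_, ⟨(hU x (s hx.1)).2 hx.1, hl x hx.1 ▸ hx.2⟩, q.li x (s hx.1)⟩) ?_
    rintro _ ⟨x, hx, rfl⟩
    have := (hU _ (q.mg (s hx.1))).1 (by rw [q.ri x (s hx.1)]; exact hx.1)
    exact ⟨this, by rw [hl _ this, q.ri x (s hx.1)]; exact hx.2⟩
  refine ⟨h.pos, fun x hx => ?_, fun a ha => ?_, fun a ha => ?_⟩
  · obtain ⟨k, a1, a2, a3⟩ := h.ch _ ((hU x (s hx)).2 hx)
    exact ⟨pre k q hd, ⟨s hx, a1⟩, fun y hy => (hU y hy.1).1 (a2 hy.2), fun y hy =>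
      (a3 _ hy.2).trans (hl y ((hU y hy.1).1 (a2 hy.2))).symm⟩
  · rw [key fun v => |v| ≤ a]
    exact (h.cpt a ha).image_of_continuousOn (q.pg.1.mono fun x hx => s hx.1)
  · obtain ⟨e1, e2, e3, e4⟩ := h.ess a ha
    rw [key fun v => v = a]
    set D := {x | x ∈ U ∧ l x = a}
    have e5 : q.g '' D ∩ dW = q.g '' (D ∩ dW) := by
      refine Subset.antisymm ?_ ?_
      · rintro _ ⟨⟨x, hx, rfl⟩, h'⟩
        exact ⟨x, ⟨hx, q.ri x (e2 hx) ▸ (hd _ (q.mg (e2 hx))).2 h'⟩, rfl⟩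
      · rintro _ ⟨x, hx, rfl⟩
        exact ⟨⟨x, hx.1, rfl⟩, (hd _ (q.mg (e2 hx.1))).1 (by rw [q.ri x (e2 hx.1)]; exact hx.2)⟩
    have e6 : q.g '' (D ∩ dW) ⊆ W := by rintro _ ⟨x, hx, rfl⟩; exact q.mg (e2 hx.1)
    have e7 : q.g '' (D ∩ dW) ⊆ G := by
      rintro _ ⟨x, hx, rfl⟩
      exact hG _ (q.mg (e2 hx.1)) (by rw [q.ri x (e2 hx.1)]; exact e3 hx)
    rw [Ess, e5]
    refine ⟨e1.map (q.symm.restrImage e2), by rintro _ ⟨x, hx, rfl⟩; exact q.mg (e2 hx), e7,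
      fun ⟨b, hb⟩ => e4 ?_⟩
    obtain ⟨b', hb'⟩ := hc.homotopy (hH.mono (prod_mono_left e6)) (hm.mono_left (prod_mono_left e7))
      (hb.congr fun x hx => by
        filter_upwards [self_mem_nhdsWithin] with y hy
        rw [h0 x (e6 hx), h0 y (e6 hy)])
    refine ⟨_, (hb'.comp (q.pg.1.mono (inter_subset_left.trans e2)) (mapsTo_image _ _)).congr fun x hx => ?_⟩
    filter_upwards [self_mem_nhdsWithin] with y hy
    rw [h1 _ (q.mg (e2 hx.1)), h1 _ (q.mg (e2 hy.1)), q.ri x (e2 hx.1), q.ri y (e2 hy.1)]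

end Crest.Agent.X212.Gp83
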